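import Vale.Agent.P255.Develop.Grid

/-!
The square between two sides of a triangle and the CN inequality.
-/

open Set Filter Topology unitInterval

namespace Vale.Agent.P255.Develop

noncomputable section

variable {X : Type} [MetricSpace X]

lemma exists_square {x y z : X} (sg : Path z x) (μ : Path x y) (τ : Path z y)
    (H : Path.Homotopy (sg.trans μ) τ) :
    ∃ G : C(I × I, X), (∀ s, G (s, 0) = z) ∧ (∀ t, G (0, t) = sg t) ∧ (∀ t, G (1, t) = τ t) ∧
      ∀ s, G (s, 1) = μ s := by
  let φr : I × I → ℝ := fun w => (w.1 : ℝ) * (1 - w.2) / ((1 - w.2) + (1 - w.1))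
  let ur : I × I → ℝ := fun w => (w.2 : ℝ) * ((1 + w.1) / 2)
  let φ : I × I → I := fun w => ⟨φr w, by
    have h1 := w.1.2.1; have h2 := w.1.2.2; have h3 := w.2.2.1; have h4 := w.2.2.2
    refine ⟨div_nonneg (mul_nonneg h1 (by linarith)) (by linarith), div_le_one_of_le₀ ?_ (by linarith)⟩
    nlinarith⟩
  let u : I × I → I := fun w => ⟨ur w, by
    have h1 := w.1.2.1; have h2 := w.1.2.2; have h3 := w.2.2.1; have h4 := w.2.2.2
    constructor
    · positivity
    · simp only [ur]; nlinarith⟩
  have hu : Continuous u := by simp only [u, ur]; fun_prop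
  have hH : Continuous fun q : I × I => H q := H.continuous
  have hG : Continuous fun w => H (φ w, u w) := by
    rw [continuous_iff_continuousAt]
    intro w
    by_cases hw : (1 - (w.2 : ℝ)) + (1 - w.1) = 0
    · have h1 := w.1.2.2; have h2 := w.2.2.2
      have hw1 : (w.1 : ℝ) = 1 := by linarith
      have hw2 : (w.2 : ℝ) = 1 := by linarith
      have huw : u w = 1 := by ext; simp [u, ur, hw1, hw2]
      have hy : H (φ w, u w) = y := by rw [huw]; exact H.target _
      show Tendsto _ _ (𝓝 (H (φ w, u w)))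
      rw [hy, Metric.tendsto_nhds]
      intro ε hε
      have key : ∀ᶠ v in 𝓝 (1 : I), ∀ a ∈ (univ : Set I), dist (H (a, v)) y < ε := by
        refine isCompact_univ.eventually_forall_of_forall_eventually fun a _ => ?_
        have ht : Tendsto (fun p : I × I => H (p.2, p.1)) (𝓝 ((1 : I), a)) (𝓝 y) := by
          have := ((hH.comp continuous_swap).tendsto ((1 : I), a))
          simpa [Function.comp_def, Prod.swap] using this
        exact ht (Metric.ball_mem_nhds y hε)
      have ht : Tendsto u (𝓝 w) (𝓝 1) := huw ▸ hu.tendsto w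
      filter_upwards [ht.eventually key] with v hv
      exact hv (φ v) (mem_univ _)
    · have hφr : ContinuousAt φr w := ContinuousAt.div (by fun_prop) (by fun_prop) hw
      have hφ : ContinuousAt φ w := hφr.codRestrict _
      exact hH.continuousAt.comp (hφ.prodMk hu.continuousAt)
  refine ⟨⟨fun w => H (φ w, u w), hG⟩, fun s => ?_, fun t => ?_, fun t => ?_, fun s => ?_⟩
  · have : u (s, 0) = 0 := by ext; simp [u, ur]
    simp [this]
  · have e1 : φ (0, t) = 0 := by ext; simp [φ, φr]
    simp only [ContinuousMap.coe_mk, e1, H.apply_zero]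
    show sg.trans μ (u (0, t)) = sg t
    rw [Path.trans_apply, dif_pos (by simp [u, ur]; linarith [t.2.2])]
    congr 1
    ext
    simp [u, ur]
    ring
  · have e2 : u (1, t) = t := by ext; simp [u, ur]
    simp only [ContinuousMap.coe_mk, e2]
    rcases eq_or_ne t 1 with rfl | ht
    · rw [H.target, Path.target]
    · have e1 : φ (1, t) = 1 := by
        ext
        have : (1 : ℝ) - t ≠ 0 := fun h => ht (Subtype.ext (show (t : ℝ) = 1 by linarith))
        simp [φ, φr, div_self this]
      rw [e1, H.apply_one]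
      rfl
  · have e1 : φ (s, 1) = 0 := by ext; simp [φ, φr]
    simp only [ContinuousMap.coe_mk, e1, H.apply_zero]
    show sg.trans μ (u (s, 1)) = μ s
    rcases eq_or_ne s 0 with rfl | hs
    · rw [Path.trans_apply, dif_pos (by simp [u, ur])]
      simp [u, ur]
    · have hs0 : (0 : ℝ) < s := lt_of_le_of_ne s.2.1 fun h => hs (Subtype.ext h.symm)
      rw [Path.trans_apply, dif_neg (by simp [u, ur]; linarith)]
      congr 1
      ext
      simp [u, ur]; ring

variable [CompactSpace X] [PathConnectedSpace X] {L : LocalCN X} {o : X}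

/-- The lift of a path at a parameter. -/
def liftPath (p : Pt o) {y : X} (P : Path p.1 y) (t : I) : Pt o :=
  lift P.toContinuousMap 0 (p.2.cast rfl P.source) t

@[simp] lemma liftPath_fst (p : Pt o) {y : X} (P : Path p.1 y) (t : I) : (liftPath p P t).1 = P t := rfl

omit [CompactSpace X] in
lemma liftPath_zero (p : Pt o) {y : X} (P : Path p.1 y) : liftPath p P 0 = p := by
  rw [liftPath, lift_base]
  exact Sigma.ext P.source (Path.Homotopic.Quotient.cast_heq rfl P.source)

omit [CompactSpace X] in
lemma liftPath_one (p q : Pt o) (P : Path p.1 q.1)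
    (h : q.2 = p.2.trans (Path.Homotopic.Quotient.mk P)) : liftPath p P 1 = q := by
  rw [liftPath, lift_eq _ _ _ (segI 0 1)]
  refine Sigma.ext P.target ?_
  rw [h]
  refine trans_heq rfl P.source P.target (Path.Homotopic.Quotient.cast_heq rfl P.source) ?_
  have e : (segI 0 1).map P.toContinuousMap.continuous = P.cast P.source P.target := by
    ext t
    simp [segI]
  rw [e, Path.Homotopic.Quotient.mk_cast]
  exact Path.Homotopic.Quotient.cast_heq _ _

lemma liftPath_near (p : Pt o) {y : X} (P : Path p.1 y) {l : ℝ}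
    (hP : ∀ s t : I, dist (P s) (P t) ≤ l * |(s : ℝ) - t|) (hl : 0 ≤ l) {n i : ℕ} (hi : i < n)
    (hn : l / n < L.r / 4) :
    Near L (liftPath p P (param n i)) (liftPath p P (param n (i + 1))) ∧
      dist (P (param n i)) (P (param n (i + 1))) ≤ l / n := by
  have h : ∀ t, dist (P (param n i)) (P (segI (param n i) (param n (i + 1)) t)) ≤ l / n := fun t => by
    refine (hP _ _).trans ?_
    rw [← Real.dist_eq, ← Subtype.dist_eq]
    calc l * dist (param n i) (segI (param n i) (param n (i + 1)) t)
        ≤ l * (1 / n) := mul_le_mul_of_nonneg_left ((segI_dist _ _ t).trans_eq (param_dist hi)) hl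
      _ = l / n := by ring
  exact ⟨lift_near L _ _ _ (segI _ _) fun t => (h t).trans_lt hn, by simpa using h 1⟩

lemma param_half {M : ℕ} (hM : 0 < M) : param (2 * M) M = param 2 1 := by
  ext
  rw [param_val (by omega), param_val (by norm_num)]
  have : (M : ℝ) ≠ 0 := by exact_mod_cast hM.ne'
  push_cast
  field_simp

/-- The CN inequality for the length distance. -/
theorem exists_cn (x y : Pt o) : ∃ m : Pt o, dd L x m = dd L x y / 2 ∧ dd L m y = dd L x y / 2 ∧
    ∀ z, dd L z m ^ 2 ≤ dd L z x ^ 2 / 2 + dd L z y ^ 2 / 2 - dd L x y ^ 2 / 4 := by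
  have hr := L.r_pos
  set D := dd L x y
  have hD : 0 ≤ D := dd_nonneg x y
  obtain ⟨μ, hμ, hμD⟩ := exists_lip (reach_dd (L := L) x y)
  set m := liftPath x μ (param 2 1)
  obtain ⟨M₀, hM₀⟩ := exists_nat_gt (D / (L.r / 8))
  have hM₀0 : 0 < M₀ := by
    rcases Nat.eq_zero_or_pos M₀ with h | h
    · rw [h, Nat.cast_zero] at hM₀
      linarith [show (0 : ℝ) ≤ D / (L.r / 8) by positivity]
    · exact h
  -- the chain along `μ`
  have hchain : ∀ M : ℕ, 0 < M → D / (2 * M : ℕ) < L.r / 4 → ∀ i j, i ≤ j → j ≤ 2 * M →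
      Reach L (liftPath x μ (param (2 * M) i)) (liftPath x μ (param (2 * M) j))
        (((j : ℝ) - i) * (D / (2 * M : ℕ))) := by
    intro M hM hsmall i j hij hj
    have := Reach.of_steps_le (f := fun k => liftPath x μ (param (2 * M) (i + k))) (n := j - i)
      (δ := D / (2 * M : ℕ)) (fun k hk => (liftPath_near x μ hμD hD (by omega) hsmall).1)
      fun k hk => (liftPath_near x μ hμD hD (by omega) hsmall).2
    simpa [Nat.add_sub_cancel' hij, Nat.cast_sub hij] using this
  have hsmall0 : D / (2 * M₀ : ℕ) < L.r / 4 := by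
    rw [div_lt_iff₀ (show (0 : ℝ) < L.r / 8 by linarith)] at hM₀
    push_cast
    rw [div_lt_iff₀ (by positivity)]
    linarith
  have hx : liftPath x μ (param (2 * M₀) 0) = x := by rw [param_zero, liftPath_zero]
  have hy : liftPath x μ (param (2 * M₀) (2 * M₀)) = y := by
    rw [param_self (by omega), liftPath_one x y μ hμ]
  have hMr : (M₀ : ℝ) ≠ 0 := by exact_mod_cast hM₀0.ne'
  have hxm : dd L x m ≤ D / 2 := by
    have h := hchain M₀ hM₀0 hsmall0 0 M₀ (Nat.zero_le _) (by omega)
    rw [hx, param_half hM₀0] at h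
    refine (dd_le h).trans_eq ?_
    push_cast; field_simp; ring
  have hmy : dd L m y ≤ D / 2 := by
    have h := hchain M₀ hM₀0 hsmall0 M₀ (2 * M₀) (by omega) le_rfl
    rw [hy, param_half hM₀0] at h
    refine (dd_le h).trans_eq ?_
    push_cast; field_simp; ring
  have htri := dd_triangle (L := L) x m y
  refine ⟨m, by linarith, by linarith, fun z => ?_⟩
  set D₁ := dd L z x
  set D₂ := dd L z y
  obtain ⟨sg, hsg, hsgD⟩ := exists_lip (reach_dd (L := L) z x)
  obtain ⟨τ, hτ, hτD⟩ := exists_lip (reach_dd (L := L) z y)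
  have hhom : (sg.trans μ).Homotopic τ := by
    rw [← Path.Homotopic.Quotient.eq, Path.Homotopic.Quotient.mk_trans]
    have h := hμ
    rw [hsg, hτ, Path.Homotopic.Quotient.trans_assoc] at h
    have h2 := congrArg (fun q => (Path.Homotopic.Quotient.symm z.2).trans q) h
    simp only [← Path.Homotopic.Quotient.trans_assoc, Path.Homotopic.Quotient.symm_trans,
      Path.Homotopic.Quotient.refl_trans] at h2
    exact h2.symm
  obtain ⟨G, hGz, hGsg, hGτ, hGμ⟩ := exists_square sg μ τ hhom.some
  obtain ⟨η, hη, hF⟩ := exists_mesh G (show (0 : ℝ) < L.r / 32 by linarith)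
  obtain ⟨M, hMa⟩ := exists_nat_gt (max (1 / η) ((D + D₁) / (L.r / 16)))
  have hM1 := (le_max_left _ _).trans_lt hMa
  have hM2 := (le_max_right _ _).trans_lt hMa
  have hM0r : (0 : ℝ) < M := (show (0 : ℝ) < 1 / η by positivity).trans hM1
  have hM : 0 < M := by exact_mod_cast hM0r
  set N := 2 * M
  have hN : (0 : ℝ) < (N : ℕ) := by exact_mod_cast (show 0 < N by omega)
  have hNcast : ((N : ℕ) : ℝ) = 2 * M := by simp [N]
  have hD₁ : 0 ≤ D₁ := dd_nonneg z x
  have hD₂ : 0 ≤ D₂ := dd_nonneg z y
  have hmesh : (1 : ℝ) / N < η := by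
    rw [div_lt_iff₀ hη] at hM1
    rw [div_lt_iff₀ hN, hNcast]
    nlinarith
  rw [div_lt_iff₀ (show (0 : ℝ) < L.r / 16 by linarith)] at hM2
  have hDN : D / N < L.r / 4 := by rw [div_lt_iff₀ hN, hNcast]; nlinarith
  have hD₁N : D₁ / N < L.r / 4 := by rw [div_lt_iff₀ hN, hNcast]; nlinarith
  let q₀ : Path.Homotopic.Quotient o (G (0, 0)) := z.2.cast rfl (hGz 0)
  let R : ℕ → ℕ → Pt o := fun j i => lift G (0, 0) q₀ (param N j, param N i)
  have hR0 : R 0 0 = z := by
    show lift G (0, 0) q₀ (param N 0, param N 0) = z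
    rw [param_zero, lift_base]
    exact Sigma.ext (hGz 0) (Path.Homotopic.Quotient.cast_heq rfl (hGz 0))
  have hrow : ∀ j ≤ N, ∀ i < N, Near L (R j i) (R j (i + 1)) ∧
      dist (R j i).1 (R j (i + 1)).1 ≤ L.r / 32 := by
    intro j _ i hi
    have h : ∀ t, dist ((param N j, param N i) : I × I) (param N j, segI (param N i) (param N (i + 1)) t) < η := fun t => by
      rw [Prod.dist_eq, dist_self, max_eq_right dist_nonneg]
      exact ((segI_dist _ _ t).trans_eq (param_dist hi)).trans_lt hmesh
    refine ⟨lift_near L _ _ _ ((Path.refl _).prod (segI _ _)) fun t => (hF _ _ (h t)).trans (by linarith), ?_⟩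
    have hd := (hF _ _ (h 1)).le
    rw [Path.target] at hd
    exact hd
  have hcol : ∀ j < N, ∀ i ≤ N, Near L (R j i) (R (j + 1) i) ∧
      dist (R j i).1 (R (j + 1) i).1 ≤ L.r / 32 := by
    intro j hj i _
    have h : ∀ t, dist ((param N j, param N i) : I × I) (segI (param N j) (param N (j + 1)) t, param N i) < η := fun t => by
      rw [Prod.dist_eq, dist_self, max_eq_left dist_nonneg]
      exact ((segI_dist _ _ t).trans_eq (param_dist hj)).trans_lt hmesh
    refine ⟨lift_near L _ _ _ ((segI _ _).prod (Path.refl _)) fun t => (hF _ _ (h t)).trans (by linarith), ?_⟩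
    have hd := (hF _ _ (h 1)).le
    rw [Path.target] at hd
    exact hd
  have hcolz : ∀ j ≤ N, R j 0 = z := fun j hj =>
    steps_eq (f := fun j => R j 0) (g := fun _ => z) hR0
      (fun i hi => (hcol i (hi.trans_le hj) 0 (Nat.zero_le N)).1) (fun _ _ => Near.refl L z)
      fun i _ => by simp [R, param_zero, hGz]
  have hrowx : R 0 N = x := by
    have h := steps_eq (f := fun i => R 0 i) (g := fun i => liftPath z sg (param N i)) (n := N)
      (by simp only [hR0, param_zero, liftPath_zero]) (fun i hi => (hrow 0 (Nat.zero_le N) i hi).1)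
      (fun i hi => (liftPath_near z sg hsgD hD₁ hi hD₁N).1) fun i _ => by simp [R, param_zero, hGsg]
    simp only [param_self (show 0 < N by omega), liftPath_one z x sg hsg] at h
    exact h
  set w : ℕ → Pt o := fun j => liftPath x μ (param N j)
  have hw0 : w 0 = x := by simp only [w, param_zero, liftPath_zero]
  have hcolw : ∀ j ≤ N, R j N = w j := fun j hj =>
    steps_eq (f := fun j => R j N) (by simp [hrowx, hw0])
      (fun i hi => (hcol i (hi.trans_le hj) N le_rfl).1)
      (fun i hi => (liftPath_near x μ hμD hD (hi.trans_le hj) hDN).1)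
      fun i _ => by simp [R, w, param_self (show 0 < N by omega), hGμ]
  set δ := D / N
  have hwN : w N = y := by simp only [w, param_self (show 0 < N by omega), liftPath_one x y μ hμ]
  have hw : ∀ j, 0 < j → j < N → midPt L (w (j - 1)) (w (j + 1)) = w j ∧
      dist (w (j - 1)).1 (w (j + 1)).1 = 2 * δ := by
    intro j hj0 hjN
    obtain ⟨n1, d1⟩ : Near L (w (j - 1)) (w j) ∧ dist (w (j - 1)).1 (w j).1 ≤ δ := by
      have h := liftPath_near x μ hμD hD (show j - 1 < N by omega) hDN (L := L)
      rwa [Nat.sub_add_cancel hj0] at h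
    obtain ⟨n2, d2⟩ := liftPath_near x μ hμD hD hjN hDN (L := L)
    have d2' : dist (w j).1 (w (j + 1)).1 ≤ δ := d2
    have hδ8 : δ + δ < L.r / 8 := by
      simp only [δ]
      rw [← add_div, div_lt_iff₀ hN, hNcast]
      nlinarith
    obtain ⟨n3, d3⟩ := n1.of_le n2 d1 d2' (by linarith)
    set d := dist (w (j - 1)).1 (w (j + 1)).1
    have h1 := hchain M hM hDN 0 (j - 1) (Nat.zero_le _) (show j - 1 ≤ N by omega)
    have h2 := hchain M hM hDN (j + 1) N (show j + 1 ≤ N by omega) le_rfl
    have h3 : D ≤ _ := dd_le ((h1.trans (Reach.single n3)).trans h2 |>.mono le_rfl |> fun h => by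
      show Reach L x y _
      rw [← hw0, ← hwN]; exact h)
    have hsum : (N : ℝ) * δ = D := mul_div_cancel₀ D hN.ne'
    push_cast [Nat.cast_sub (show 1 ≤ j from hj0)] at h3
    have hd2 : 2 * δ ≤ d := by
      have : D / (2 * (M : ℝ)) = δ := by simp [δ, hNcast]
      simp only [this, hNcast] at h3
      nlinarith [hNcast]
    have hd : d = 2 * δ := le_antisymm (by linarith) hd2
    refine ⟨?_, hd⟩
    have htri' := dist_triangle (w (j - 1)).1 (w j).1 (w (j + 1)).1
    have hmid : L.mid (w (j - 1)).1 (w (j + 1)).1 = (w j).1 := by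
      refine (L.unique _ _ _ (by linarith) ?_ ?_).symm
      · linarith
      · linarith
    rw [midPt, hmid]
    exact n1.2.symm
  have hgood : Good L (2 * M) N z w (R 0) (R N) R :=
    ⟨hrow, hcol, fun j hj => ⟨hcolz j hj, hcolw j hj⟩, rfl, rfl⟩
  have hb := grid_bound hM hgood hw
  have hwm : w M = m := by simp only [w, m, N, param_half hM]
  rw [hwm] at hb
  have hen : ∀ (P : I → X) (l : ℝ), 0 ≤ l → (∀ s t : I, dist (P s) (P t) ≤ l * |(s : ℝ) - t|) →
      (N : ℝ) * ∑ i ∈ Finset.range N, dist (P (param N i)) (P (param N (i + 1))) ^ 2 ≤ l ^ 2 := by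
    intro P l hl hP
    calc (N : ℝ) * ∑ i ∈ Finset.range N, dist (P (param N i)) (P (param N (i + 1))) ^ 2
        ≤ (N : ℝ) * ∑ _i ∈ Finset.range N, (l / N) ^ 2 := by
          refine mul_le_mul_of_nonneg_left (Finset.sum_le_sum fun i hi => ?_) hN.le
          refine pow_le_pow_left₀ dist_nonneg ?_ 2
          refine (hP _ _).trans_eq ?_
          rw [← Real.dist_eq, ← Subtype.dist_eq, param_dist (Finset.mem_range.1 hi)]
          ring
      _ = l ^ 2 := by rw [Finset.sum_const, Finset.card_range, nsmul_eq_mul]; field_simp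
  have e0 : energy N (R 0) ≤ D₁ ^ 2 := by
    simpa [energy, R, param_zero, hGsg] using hen sg D₁ hD₁ hsgD
  have e1 : energy N (R N) ≤ D₂ ^ 2 := by
    simpa [energy, R, param_self (show 0 < N by omega), hGτ] using hen τ D₂ hD₂ hτD
  have hMδ : (M : ℝ) * δ = D / 2 := by simp only [δ, hNcast]; field_simp
  rw [hMδ] at hb
  nlinarith

end

end Vale.Agent.P255.Develop
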