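import Vale.Agent.P255.Develop.Geo

/-!
The space of homotopy classes of paths from a base point, and chains of short segments in it.
-/

open Set Filter Topology unitInterval

namespace Vale.Agent.P255.Develop

noncomputable section

variable {X : Type} [MetricSpace X] [CompactSpace X] [PathConnectedSpace X] (L : LocalCN X) (o : X)

/-- Classes of paths from the base point. -/
abbrev Pt := Σ x : X, Path.Homotopic.Quotient o x

variable {o}

/-- The class `p` continued by the short segment to `y`. -/
def move (p : Pt o) (y : X) : Pt o := ⟨y, p.2.trans (seg L p.1 y)⟩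

@[simp] lemma move_fst (p : Pt o) (y : X) : (move L p y).1 = y := rfl

lemma move_self (p : Pt o) : move L p p.1 = p := by
  obtain ⟨x, q⟩ := p
  simp [move, seg_self]

/-- Two classes joined by a short segment. -/
def Near (p q : Pt o) : Prop := dist p.1 q.1 < L.r / 4 ∧ q = move L p q.1

lemma Near.refl (p : Pt o) : Near L p p :=
  ⟨by simpa using L.r_pos, (move_self L p).symm⟩

lemma move_move (p : Pt o) {y z : X} (h1 : dist p.1 y < L.r / 4) (h2 : dist y z < L.r / 4) :
    move L (move L p y) z = move L p z := by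
  simp [move, Path.Homotopic.Quotient.trans_assoc, seg_seg L h1 h2]

lemma near_move (p : Pt o) {y : X} (h : dist p.1 y < L.r / 4) : Near L p (move L p y) := ⟨h, rfl⟩

variable {L}

lemma Near.symm {p q : Pt o} (h : Near L p q) : Near L q p := by
  refine ⟨by rw [dist_comm]; exact h.1, ?_⟩
  rw [h.2, move_move L p h.1 (by simpa [dist_comm] using h.1), move_self]

lemma Near.trans {p q s : Pt o} (h1 : Near L p q) (h2 : Near L q s)
    (h : dist p.1 s.1 < L.r / 4) : Near L p s :=
  ⟨h, h2.2.trans (by rw [h1.2]; exact move_move L p h1.1 h2.1)⟩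

lemma Near.eq_of_fst {p q : Pt o} (h : Near L p q) (he : p.1 = q.1) : p = q := by
  rw [h.2, ← he, move_self]

/-- The midpoint of two nearby classes. -/
def midPt (L : LocalCN X) (p q : Pt o) : Pt o := move L p (L.mid p.1 q.1)

@[simp] lemma midPt_fst (p q : Pt o) : (midPt L p q).1 = L.mid p.1 q.1 := rfl

lemma near_midPt {p q : Pt o} (h : Near L p q) : Near L p (midPt L p q) ∧ Near L q (midPt L p q) := by
  have hr := L.r_pos
  have h1 : dist p.1 q.1 < L.r := by linarith [h.1]
  have e1 := L.dist_left _ _ h1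
  have e2 := L.dist_right _ _ h1
  have hd := dist_nonneg (x := p.1) (y := q.1)
  have hp : Near L p (midPt L p q) := near_move L p (by rw [e1]; linarith [h.1])
  refine ⟨hp, h.symm.trans hp ?_⟩
  rw [midPt_fst, dist_comm, e2]
  linarith [h.1]

/-- There is a chain of short segments of total length at most `l`. -/
inductive Reach (L : LocalCN X) : Pt o → Pt o → ℝ → Prop
  | refl (p : Pt o) (l : ℝ) : 0 ≤ l → Reach L p p l
  | head (p q s : Pt o) (l l' : ℝ) : Near L p q → Reach L q s l → dist p.1 q.1 + l ≤ l' → Reach L p s l'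

namespace Reach

variable {p q s : Pt o} {l l' : ℝ}

lemma nonneg (h : Reach L p q l) : 0 ≤ l := by
  induction h with
  | refl _ _ h => exact h
  | head p q _ l l' _ _ hl ih => linarith [dist_nonneg (x := p.1) (y := q.1)]

lemma mono (h : Reach L p q l) (hl : l ≤ l') : Reach L p q l' := by
  cases h with
  | refl _ _ h => exact .refl _ _ (h.trans hl)
  | head _ r _ l₀ _ h1 h2 h3 => exact .head _ r _ l₀ _ h1 h2 (h3.trans hl)

lemma single (h : Near L p q) : Reach L p q (dist p.1 q.1) :=
  .head p q q 0 _ h (.refl q 0 le_rfl) (by simp)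

lemma trans (h : Reach L p q l) (h' : Reach L q s l') : Reach L p s (l + l') := by
  induction h with
  | refl _ _ h => exact h'.mono (by linarith)
  | head p r _ l₀ l₁ h1 _ h3 ih => exact .head p r s (l₀ + l') _ h1 (ih h') (by linarith)

lemma symm (h : Reach L p q l) : Reach L q p l := by
  induction h with
  | refl p l h => exact .refl p l h
  | head p r _ l₀ l₁ h1 _ h3 ih =>
    exact (ih.trans (single h1.symm)).mono (by rw [dist_comm]; linarith)

lemma dist_le (h : Reach L p q l) : dist p.1 q.1 ≤ l := by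
  induction h with
  | refl p l h => simpa using h
  | head p r s l₀ l₁ _ _ h3 ih => linarith [dist_triangle p.1 r.1 s.1]

lemma near (h : Reach L p q l) (hl : l < L.r / 4) : Near L p q := by
  induction h with
  | refl p _ _ => exact Near.refl L p
  | head p r s l₀ l₁ h1 h2 h3 ih =>
    have hd := dist_nonneg (x := p.1) (y := r.1)
    exact h1.trans (ih (by linarith)) (by linarith [h2.dist_le, dist_triangle p.1 r.1 s.1])

lemma split (h : Reach L p q l) : ∀ a, 0 ≤ a → a ≤ l →
    ∃ m, Reach L p m a ∧ Reach L m q (l - a) := by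
  induction h with
  | refl p l h => exact fun a ha hal => ⟨p, .refl p a ha, .refl p _ (by linarith)⟩
  | head p r s l₀ l₁ h1 h2 h3 ih =>
    intro a ha hal
    have hl := h2.nonneg
    rcases le_or_gt (dist p.1 r.1) a with hle | hgt
    · rcases le_or_gt (a - dist p.1 r.1) l₀ with hle' | hgt'
      · obtain ⟨m, hm1, hm2⟩ := ih (a - dist p.1 r.1) (by linarith) hle'
        exact ⟨m, .head p r m _ _ h1 hm1 (by linarith), hm2.mono (by linarith)⟩
      · exact ⟨s, .head p r s l₀ _ h1 h2 (by linarith), .refl s _ (by linarith)⟩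
    · have hr := L.r_pos
      have hd : dist p.1 r.1 < L.r / 2 := by linarith [h1.1]
      have hpos : 0 < dist p.1 r.1 := by linarith
      have ht : a / dist p.1 r.1 ∈ Icc (0 : ℝ) 1 := ⟨by positivity, (div_le_one hpos).2 hgt.le⟩
      obtain ⟨g1, g2⟩ := geo_spec L hd ht
      rw [div_mul_cancel₀ a hpos.ne'] at g1
      rw [sub_mul, one_mul, div_mul_cancel₀ a hpos.ne'] at g2
      set m := move L p (geo L p.1 r.1 (a / dist p.1 r.1))
      have n1 : Near L p m := near_move L p (by rw [g1]; linarith [h1.1])
      have n2 : Near L m r := n1.symm.trans h1 (by rw [move_fst, g2]; linarith [h1.1])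
      exact ⟨m, (single n1).mono g1.le, .head m r s l₀ _ n2 h2 (by rw [move_fst, g2]; linarith)⟩

/-- A chain of `K` equal steps. -/
lemma equal_steps (h : Reach L p q l) {K : ℕ} (hK : 0 < K) (hh : l / K < L.r / 4) :
    ∃ f : ℕ → Pt o, f 0 = p ∧ f K = q ∧ ∀ i < K, Near L (f i) (f (i + 1)) ∧
      dist (f i).1 (f (i + 1)).1 ≤ l / K := by
  have hstep : ∀ (n : ℕ) (p : Pt o), Reach L p q (n * (l / K)) →
      ∃ f : ℕ → Pt o, f 0 = p ∧ f n = q ∧ ∀ i < n, Near L (f i) (f (i + 1)) ∧
        dist (f i).1 (f (i + 1)).1 ≤ l / K := by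
    intro n
    induction n with
    | zero =>
      intro p hp
      refine ⟨fun _ => p, rfl, ?_, fun i hi => absurd hi (Nat.not_lt_zero i)⟩
      exact (hp.near (by simpa using L.r_pos)).eq_of_fst (dist_le_zero.1 (by simpa using hp.dist_le))
    | succ n ih =>
      intro p hp
      have hl : 0 ≤ l / K := div_nonneg h.nonneg (Nat.cast_nonneg K)
      obtain ⟨m, h1, h2⟩ := hp.split (l / K) hl
        (le_mul_of_one_le_left hl (by norm_num))
      obtain ⟨f, f0, fn, hf⟩ := ih m (h2.mono (by push_cast; linarith))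
      refine ⟨fun i => Nat.casesOn i p f, rfl, fn, fun i hi => ?_⟩
      cases i with
      | zero =>
        show Near L p (f 0) ∧ dist p.1 (f 0).1 ≤ l / K
        rw [f0]
        exact ⟨h1.near hh, h1.dist_le⟩
      | succ i => exact hf i (by omega)
  refine hstep K p (h.mono (le_of_eq ?_))
  field_simp

lemma of_steps {f : ℕ → Pt o} : ∀ {n : ℕ}, (∀ i < n, Near L (f i) (f (i + 1))) →
    Reach L (f 0) (f n) (∑ i ∈ Finset.range n, dist (f i).1 (f (i + 1)).1) := by
  intro n
  induction n with
  | zero => exact fun _ => .refl _ _ (by simp)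
  | succ n ih =>
    intro h
    rw [Finset.sum_range_succ]
    exact (ih fun i hi => h i (by omega)).trans (single (h n (by omega)))

lemma of_steps_le {f : ℕ → Pt o} {n : ℕ} {δ : ℝ} (h : ∀ i < n, Near L (f i) (f (i + 1)))
    (hd : ∀ i < n, dist (f i).1 (f (i + 1)).1 ≤ δ) : Reach L (f 0) (f n) (n * δ) := by
  refine (of_steps h).mono ((Finset.sum_le_sum fun i hi => hd i (Finset.mem_range.1 hi)).trans_eq ?_)
  simp

end Reach

/-- Chains with the same start and the same projection agree. -/
lemma steps_eq {f g : ℕ → Pt o} {n : ℕ} (h0 : f 0 = g 0) (hf : ∀ i < n, Near L (f i) (f (i + 1)))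
    (hg : ∀ i < n, Near L (g i) (g (i + 1))) (hp : ∀ i ≤ n, (f i).1 = (g i).1) : f n = g n := by
  induction n with
  | zero => exact h0
  | succ n ih =>
    rw [(hf n (by omega)).2, (hg n (by omega)).2,
      ih (fun i hi => hf i (by omega)) (fun i hi => hg i (by omega)) (fun i hi => hp i (by omega)),
      hp (n + 1) le_rfl]

variable (L)

/-- The class of a path of the parameter space, mapped and appended. -/
def lift {Y : Type*} [TopologicalSpace Y] [SimplyConnectedSpace Y] (F : C(Y, X)) (w₀ : Y)
    (q : Path.Homotopic.Quotient o (F w₀)) (w : Y) : Pt o :=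
  ⟨F w, q.trans (Path.Homotopic.Quotient.mk ((PathConnectedSpace.somePath w₀ w).map F.continuous))⟩

omit [CompactSpace X] [PathConnectedSpace X] in
lemma map_eq_of_simplyConnected {Y : Type*} [TopologicalSpace Y] [SimplyConnectedSpace Y]
    (F : C(Y, X)) {a b : Y} (p p' : Path a b) :
    Path.Homotopic.Quotient.mk (p.map F.continuous) = Path.Homotopic.Quotient.mk (p'.map F.continuous) :=
  Path.Homotopic.Quotient.eq.2 ((SimplyConnectedSpace.paths_homotopic p p').map F)

variable {Y : Type*} [TopologicalSpace Y] [SimplyConnectedSpace Y] (F : C(Y, X)) (w₀ : Y)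
  (q : Path.Homotopic.Quotient o (F w₀))

omit [CompactSpace X] [PathConnectedSpace X] in
@[simp] lemma lift_fst (w : Y) : (lift F w₀ q w).1 = F w := rfl

omit [CompactSpace X] [PathConnectedSpace X] in
lemma lift_eq {w : Y} (p : Path w₀ w) :
    lift F w₀ q w = ⟨F w, q.trans (Path.Homotopic.Quotient.mk (p.map F.continuous))⟩ := by
  rw [lift, map_eq_of_simplyConnected F _ p]

omit [CompactSpace X] [PathConnectedSpace X] in
lemma lift_base : lift F w₀ q w₀ = ⟨F w₀, q⟩ := by
  rw [lift_eq F w₀ q (Path.refl w₀),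
    show (Path.refl w₀).map F.continuous = Path.refl (F w₀) from Path.ext rfl, Path.Homotopic.Quotient.mk_refl,
    Path.Homotopic.Quotient.trans_refl]

lemma lift_near {w w' : Y} (P : Path w w') (hP : ∀ t, dist (F w) (F (P t)) < L.r / 4) :
    Near L (lift F w₀ q w) (lift F w₀ q w') := by
  have h1 : dist (F w) (F w') < L.r / 4 := by simpa using hP 1
  refine ⟨h1, ?_⟩
  rw [lift_eq F w₀ q ((PathConnectedSpace.somePath w₀ w).trans P)]
  show (⟨F w', _⟩ : Pt o) = ⟨F w', (q.trans _).trans (seg L (F w) (F w'))⟩
  rw [Path.Homotopic.Quotient.trans_assoc, Path.map_trans, Path.Homotopic.Quotient.mk_trans,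
    ← seg_path L (P.map F.continuous) (fun t => by
      show dist (F w) (F (P t)) < L.r / 2
      linarith [hP t, L.r_pos]),
    seg_self, Path.Homotopic.Quotient.refl_trans]

end

end Vale.Agent.P255.Develop
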