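import Mathlib
import Vale.Agent.P255.LocalCN

/-!
Short geodesics and the homotopy classes of short paths.
-/

open Set Filter Topology unitInterval

namespace Vale.Agent.P255.Develop

noncomputable section

variable {X : Type} [MetricSpace X] (L : LocalCN X)

lemma mid_self (a : X) : L.mid a a = a := by
  have h : dist a a < L.r := by simpa using L.r_pos
  exact (L.unique a a a h (by simp) (by simp)).symm

lemma point_unique {a b p q : X} {s : ℝ} (h : dist a b < L.r / 2) (hs : s ∈ Icc (0 : ℝ) 1)
    (hp1 : dist a p = s * dist a b) (hp2 : dist p b = (1 - s) * dist a b)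
    (hq1 : dist a q = s * dist a b) (hq2 : dist q b = (1 - s) * dist a b) : p = q := by
  have hd := dist_nonneg (x := a) (y := b)
  have h0 := hs.1
  have h1 := hs.2
  have hr := L.r_pos
  have hpa : dist p a = s * dist a b := by rw [dist_comm, hp1]
  have hqa : dist q a = s * dist a b := by rw [dist_comm, hq1]
  have hpr : dist p a < L.r := by nlinarith
  have hqr : dist q a < L.r := by nlinarith
  have hpb : dist p b < L.r := by nlinarith
  have hqb : dist q b < L.r := by nlinarith
  have hpq : dist p q < L.r := by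
    have := dist_triangle p a q
    rw [hpa, hq1] at this
    nlinarith
  have j1 := L.joint p a q a hpq hpr hqr (by simpa using hr)
  have j2 := L.joint p b q b hpq hpb hqb (by simpa using hr)
  rw [mid_self, dist_self, hpa, hqa, sub_zero] at j1
  rw [mid_self, dist_self, hp2, hq2, sub_zero] at j2
  by_contra hne
  have hpos : 0 < dist p q := dist_pos.2 hne
  set m := L.mid p q
  have e1 : dist a m < s * dist a b := by
    rw [dist_comm]
    nlinarith [mul_nonneg h0 hd, dist_nonneg (x := m) (y := a)]
  have e2 : dist m b < (1 - s) * dist a b := by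
    nlinarith [mul_nonneg (sub_nonneg.2 h1) hd, dist_nonneg (x := m) (y := b)]
  linarith [dist_triangle a m b]

instance contractible_unitInterval : ContractibleSpace I :=
  (convex_Icc (0 : ℝ) 1).contractibleSpace ⟨0, le_rfl, zero_le_one⟩

/-- The point at fraction `s` of the short segment from `a` to `b`. -/
def geo (a b : X) (s : ℝ) : X :=
  if h : dist a b < L.r / 2 ∧ s ∈ Icc (0 : ℝ) 1 then
    (L.connected a b (h.1.trans (half_lt_self L.r_pos)) s h.2).choose else a

lemma geo_spec {a b : X} {s : ℝ} (h : dist a b < L.r / 2) (hs : s ∈ Icc (0 : ℝ) 1) :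
    dist a (geo L a b s) = s * dist a b ∧ dist (geo L a b s) b = (1 - s) * dist a b := by
  rw [geo, dif_pos ⟨h, hs⟩]
  exact (L.connected a b (h.trans (half_lt_self L.r_pos)) s hs).choose_spec

lemma geo_eq {a b p : X} {s : ℝ} (h : dist a b < L.r / 2) (hs : s ∈ Icc (0 : ℝ) 1)
    (h1 : dist a p = s * dist a b) (h2 : dist p b = (1 - s) * dist a b) : geo L a b s = p :=
  point_unique L h hs (geo_spec L h hs).1 (geo_spec L h hs).2 h1 h2

lemma geo_zero {a b : X} (h : dist a b < L.r / 2) : geo L a b 0 = a :=
  geo_eq L h ⟨le_rfl, zero_le_one⟩ (by simp) (by simp)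

lemma geo_one {a b : X} (h : dist a b < L.r / 2) : geo L a b 1 = b :=
  geo_eq L h ⟨zero_le_one, le_rfl⟩ (by simp) (by simp)

lemma geo_self (a : X) {s : ℝ} (hs : s ∈ Icc (0 : ℝ) 1) : geo L a a s = a :=
  geo_eq L (by simpa using half_pos L.r_pos) hs (by simp) (by simp)

lemma geo_dist {a b : X} {s t : ℝ} (h : dist a b < L.r / 2) (hs : s ∈ Icc (0 : ℝ) 1)
    (ht : t ∈ Icc (0 : ℝ) 1) : dist (geo L a b s) (geo L a b t) ≤ |s - t| * dist a b := by
  wlog hle : s ≤ t generalizing s t
  · rw [dist_comm, abs_sub_comm]; exact this ht hs (le_of_not_ge hle)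
  rcases hle.eq_or_lt with rfl | hlt
  · simp
  obtain ⟨g1, g2⟩ := geo_spec L h hs
  have hd := dist_nonneg (x := a) (y := b)
  have hs1 : 0 < 1 - s := by linarith [ht.2]
  have hD : dist (geo L a b s) b < L.r / 2 := by rw [g2]; nlinarith [hs.1]
  have hlam : (t - s) / (1 - s) ∈ Icc (0 : ℝ) 1 :=
    ⟨div_nonneg (by linarith) hs1.le, (div_le_one hs1).2 (by linarith [ht.2])⟩
  obtain ⟨q1, q2⟩ := geo_spec L hD hlam
  set q := geo L (geo L a b s) b ((t - s) / (1 - s))
  rw [g2] at q1 q2
  have e1 : (t - s) / (1 - s) * ((1 - s) * dist a b) = (t - s) * dist a b := by field_simp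
  have e2 : (1 - (t - s) / (1 - s)) * ((1 - s) * dist a b) = (1 - t) * dist a b := by
    field_simp; ring
  rw [e1] at q1
  rw [e2] at q2
  have h3 := dist_triangle a (geo L a b s) q
  have h4 := dist_triangle a q b
  have hq : geo L a b t = q := geo_eq L h ht (by linarith) q2
  rw [hq, q1, abs_of_neg (by linarith)]
  linarith

variable [CompactSpace X]

lemma continuous_geo {Y : Type*} [TopologicalSpace Y] {fa fb : Y → X} {fs : Y → ℝ}
    (ha : Continuous fa) (hb : Continuous fb) (hs : Continuous fs)
    (hd : ∀ y, dist (fa y) (fb y) < L.r / 2) (hI : ∀ y, fs y ∈ Icc (0 : ℝ) 1) :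
    Continuous fun y => geo L (fa y) (fb y) (fs y) := by
  rw [continuous_iff_continuousAt]
  intro y₀
  refine tendsto_iff_ultrafilter _ _ _ |>.2 fun u hu => ?_
  obtain ⟨p, -, hp⟩ := isCompact_univ.ultrafilter_le_nhds
    (u.map fun y => geo L (fa y) (fb y) (fs y)) (by simp)
  have hp' : Tendsto (fun y => geo L (fa y) (fb y) (fs y)) u (𝓝 p) := hp
  have hA := (ha.tendsto y₀).mono_left hu
  have hB := (hb.tendsto y₀).mono_left hu
  have hS := (hs.tendsto y₀).mono_left hu
  have e1 : dist (fa y₀) p = fs y₀ * dist (fa y₀) (fb y₀) :=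
    tendsto_nhds_unique (hA.dist hp') ((hS.mul (hA.dist hB)).congr
      fun y => (geo_spec L (hd y) (hI y)).1.symm)
  have e2 : dist p (fb y₀) = (1 - fs y₀) * dist (fa y₀) (fb y₀) :=
    tendsto_nhds_unique (hp'.dist hB) (((tendsto_const_nhds.sub hS).mul (hA.dist hB)).congr
      fun y => (geo_spec L (hd y) (hI y)).2.symm)
  simp only [geo_eq L (hd y₀) (hI y₀) e1 e2]
  exact hp'

/-- The short segment as a path. -/
def geoPath {a b : X} (h : dist a b < L.r / 2) : Path a b where
  toFun t := geo L a b t
  continuous_toFun := continuous_geo L continuous_const continuous_const continuous_subtype_val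
    (fun _ => h) fun t => t.2
  source' := geo_zero L h
  target' := geo_one L h

variable [PathConnectedSpace X]

/-- The class of the short segment, or of some path if the points are far apart. -/
def seg (a b : X) : Path.Homotopic.Quotient a b :=
  if h : dist a b < L.r / 2 then Path.Homotopic.Quotient.mk (geoPath L h)
  else Path.Homotopic.Quotient.mk (PathConnectedSpace.somePath a b)

lemma seg_eq {a b : X} (h : dist a b < L.r / 2) :
    seg L a b = Path.Homotopic.Quotient.mk (geoPath L h) := dif_pos h

lemma seg_self (a : X) : seg L a a = Path.Homotopic.Quotient.refl a := by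
  rw [seg_eq L (by simpa using half_pos L.r_pos), ← Path.Homotopic.Quotient.mk_refl]
  congr 1
  ext t
  exact geo_self L a t.2

/-- A path in a small ball about `a` closes the triangle with the segments to its ends. -/
lemma seg_path {a b c : X} (P : Path b c) (hP : ∀ t, dist a (P t) < L.r / 2) :
    (seg L a b).trans (Path.Homotopic.Quotient.mk P) = seg L a c := by
  have hab : dist a b < L.r / 2 := by simpa using hP 0
  have hac : dist a c < L.r / 2 := by simpa using hP 1
  let H : C(I × I, X) := ⟨fun z => geo L a (P z.2) z.1,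
    continuous_geo L continuous_const (P.continuous.comp continuous_snd)
      (continuous_subtype_val.comp continuous_fst) (fun z => hP z.2) fun z => z.1.2⟩
  let p1 : Path ((0, 0) : I × I) (1, 0) := (⟨⟨id, continuous_id⟩, rfl, rfl⟩ : Path (0 : I) 1).prod (Path.refl (0 : I))
  let p2 : Path ((1, 0) : I × I) (1, 1) := (Path.refl (1 : I)).prod ⟨⟨id, continuous_id⟩, rfl, rfl⟩
  let q1 : Path ((0, 0) : I × I) (0, 1) := (Path.refl (0 : I)).prod ⟨⟨id, continuous_id⟩, rfl, rfl⟩
  let q2 : Path ((0, 1) : I × I) (1, 1) := (⟨⟨id, continuous_id⟩, rfl, rfl⟩ : Path (0 : I) 1).prod (Path.refl (1 : I))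
  have hh : (p1.trans p2).Homotopic (q1.trans q2) := SimplyConnectedSpace.paths_homotopic _ _
  have h00 : H (0, 0) = a := geo_zero L (hP 0)
  have h10 : H (1, 0) = b := (geo_one L (hP 0)).trans P.source
  have h11 : H (1, 1) = c := (geo_one L (hP 1)).trans P.target
  have h01 : H (0, 1) = a := geo_zero L (hP 1)
  have e1 : (geoPath L hab).trans P = ((p1.trans p2).map H.continuous).cast h00.symm h11.symm := by
    ext t
    simp only [Path.cast_coe, Path.map_coe, Function.comp_apply, Path.trans_apply]
    split_ifs <;> simp [H, p1, p2, geoPath, Path.prod, geo_one L (hP _)]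
  have e2 : (Path.refl a).trans (geoPath L hac) =
      ((q1.trans q2).map H.continuous).cast h00.symm h11.symm := by
    ext t
    simp only [Path.cast_coe, Path.map_coe, Function.comp_apply, Path.trans_apply]
    split_ifs <;> simp [H, q1, q2, geoPath, Path.prod, geo_zero L (hP _)]
  rw [seg_eq L hab, seg_eq L hac, ← Path.Homotopic.Quotient.mk_trans,
    ← Path.Homotopic.Quotient.refl_trans (Path.Homotopic.Quotient.mk (geoPath L hac)),
    ← Path.Homotopic.Quotient.mk_refl, ← Path.Homotopic.Quotient.mk_trans, Path.Homotopic.Quotient.eq, e1, e2]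
  exact ⟨((hh.map H).some).cast rfl rfl |>.pathCast h00.symm h11.symm⟩

lemma seg_seg {a b c : X} (hab : dist a b < L.r / 4) (hbc : dist b c < L.r / 4) :
    (seg L a b).trans (seg L b c) = seg L a c := by
  have hr := L.r_pos
  have hbc' : dist b c < L.r / 2 := by linarith
  rw [seg_eq L hbc']
  refine seg_path L _ fun t => ?_
  show dist a (geo L b c t) < L.r / 2
  have h1 := (geo_spec L hbc' t.2).1
  have h2 := dist_triangle a b (geo L b c t)
  have h3 := mul_le_mul_of_nonneg_right (unitInterval.le_one t) (dist_nonneg (x := b) (y := c))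
  linarith

end

end Vale.Agent.P255.Develop
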