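import Vale.Agent.P255.Develop.Length

/-!
The grid argument: iterated midpoints of rows give the CN inequality.
-/

open Set Filter Topology unitInterval

namespace Vale.Agent.P255.Develop

noncomputable section

lemma heat {K : ℕ} (U : ℕ → ℕ → ℝ) (A B : ℝ)
    (hU : ∀ n j, 0 < j → j < K → U (n + 1) j ≤ (U n (j - 1) + U n (j + 1)) / 2)
    (h0 : ∀ n, U n 0 ≤ A) (hK : ∀ n, U n K ≤ B) (hK0 : 0 < K) {j : ℕ} (hj : j ≤ K) {ε : ℝ}
    (hε : 0 < ε) : ∃ n, U n j ≤ A + (B - A) * j / K + ε := by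
  set lin : ℕ → ℝ := fun j => A + (B - A) * j / K
  set b : ℕ → ℝ := fun j => 1 + (j : ℝ) * ((K : ℝ) - j)
  have hKr : (0 : ℝ) < K := by exact_mod_cast hK0
  set S := 1 + (K : ℝ) * K
  set θ := 1 - 1 / S
  have hS : 1 < S := by nlinarith
  have hθ0 : 0 ≤ θ := sub_nonneg.2 ((div_le_one (by linarith)).2 hS.le)
  have hθ1 : θ < 1 := by simp only [θ]; linarith [show 0 < 1 / S by positivity]
  have hb : ∀ j : ℕ, j ≤ K → 1 ≤ b j ∧ b j ≤ S := fun j hj => by
    have h : (j : ℝ) ≤ K := Nat.cast_le.2 hj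
    exact ⟨le_add_of_nonneg_right (mul_nonneg (Nat.cast_nonneg j) (sub_nonneg.2 h)),
      by simp only [b, S]; nlinarith [Nat.cast_nonneg (α := ℝ) j]⟩
  have hl0 : lin 0 = A := by simp [lin]
  have hlK : lin K = B := by simp [lin, hKr.ne']
  set C := ∑ j ∈ Finset.range (K + 1), |U 0 j - lin j|
  have hC : 0 ≤ C := Finset.sum_nonneg fun j _ => abs_nonneg _
  have hmain : ∀ n j, j ≤ K → U n j - lin j ≤ C * θ ^ n * b j := by
    intro n
    induction n with
    | zero =>
      intro j hj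
      have h1 : |U 0 j - lin j| ≤ C :=
        Finset.single_le_sum (f := fun j => |U 0 j - lin j|) (fun j _ => abs_nonneg _)
          (Finset.mem_range.2 (Nat.lt_succ_of_le hj))
      have := mul_le_mul_of_nonneg_left (hb j hj).1 hC
      simp only [pow_zero, mul_one] at *
      linarith [le_abs_self (U 0 j - lin j)]
    | succ n ih =>
      intro j hj
      have hpos : 0 ≤ C * θ ^ (n + 1) * b j :=
        mul_nonneg (mul_nonneg hC (pow_nonneg hθ0 _)) (le_trans zero_le_one (hb j hj).1)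
      rcases Nat.eq_zero_or_pos j with rfl | hj0
      · linarith [h0 (n + 1), hl0]
      rcases hj.eq_or_lt with rfl | hlt
      · linarith [hK (n + 1), hlK]
      obtain ⟨i, rfl⟩ : ∃ i, j = i + 1 := ⟨j - 1, by omega⟩
      have h1 := hU n (i + 1) (by omega) hlt
      simp only [Nat.add_sub_cancel] at h1
      have h2 := ih i (by omega)
      have h3 := ih (i + 1 + 1) (by omega)
      have hbavg : (b i + b (i + 1 + 1)) / 2 = b (i + 1) - 1 := by simp only [b]; push_cast; ring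
      have hlavg : (lin i + lin (i + 1 + 1)) / 2 = lin (i + 1) := by simp only [lin]; push_cast; ring
      have hθb : b (i + 1) - 1 ≤ θ * b (i + 1) := by
        simp only [θ, sub_mul, one_mul, sub_le_sub_iff_left]
        rw [div_mul_eq_mul_div, one_mul, div_le_one (by linarith)]
        exact (hb _ hlt.le).2
      have h4 := mul_le_mul_of_nonneg_left hθb (mul_nonneg hC (pow_nonneg hθ0 n))
      rw [pow_succ]
      linarith [h1, h2, h3, h4, hbavg, hlavg, show C * θ ^ n * ((b i + b (i + 1 + 1)) / 2) =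
        C * θ ^ n * (b (i + 1) - 1) by rw [hbavg]]
  obtain ⟨n, hn⟩ := exists_pow_lt_of_lt_one (show 0 < ε / (C * S + 1) by positivity) hθ1
  refine ⟨n, ?_⟩
  have h := hmain n j hj
  have h5 : C * θ ^ n * b j ≤ C * S * (ε / (C * S + 1)) := by
    calc C * θ ^ n * b j ≤ C * θ ^ n * S := mul_le_mul_of_nonneg_left (hb j hj).2 (mul_nonneg hC (pow_nonneg hθ0 n))
      _ = C * S * θ ^ n := by ring
      _ ≤ C * S * (ε / (C * S + 1)) := mul_le_mul_of_nonneg_left hn.le (mul_nonneg hC (by linarith))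
  have h6 : C * S * (ε / (C * S + 1)) ≤ ε := by
    rw [mul_div_assoc', div_le_iff₀ (by positivity)]
    nlinarith
  simp only [lin] at h
  linarith

variable {X : Type} [MetricSpace X] [CompactSpace X] [PathConnectedSpace X] {L : LocalCN X} {o : X}

/-- The energy of a row. -/
def energy (N : ℕ) (f : ℕ → Pt o) : ℝ :=
  (N : ℝ) * ∑ i ∈ Finset.range N, dist (f i).1 (f (i + 1)).1 ^ 2

omit [CompactSpace X] [PathConnectedSpace X] in
lemma energy_mid {N : ℕ} {a b m : ℕ → Pt o} {h : ℝ} (hh : h < L.r / 4)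
    (hm : ∀ i ≤ N, (m i).1 = L.mid (a i).1 (b i).1)
    (hab : ∀ i ≤ N, dist (a i).1 (b i).1 ≤ 2 * h)
    (ha : ∀ i < N, dist (a i).1 (a (i + 1)).1 ≤ h) (hb : ∀ i < N, dist (b i).1 (b (i + 1)).1 ≤ h) :
    energy N m ≤ (energy N a + energy N b) / 2 -
      (dist (a 0).1 (b 0).1 - dist (a N).1 (b N).1) ^ 2 / 4 := by
  have hr := L.r_pos
  set e : ℕ → ℝ := fun i => dist (a i).1 (b i).1
  have hstep : ∀ i ∈ Finset.range N, dist (m i).1 (m (i + 1)).1 ^ 2 ≤
      dist (a i).1 (a (i + 1)).1 ^ 2 / 2 + dist (b i).1 (b (i + 1)).1 ^ 2 / 2 - (e i - e (i + 1)) ^ 2 / 4 := by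
    intro i hi
    have hi := Finset.mem_range.1 hi
    rw [hm i hi.le, hm (i + 1) hi]
    exact L.joint _ _ _ _ (by linarith [hab i hi.le]) (by linarith [ha i hi]) (by linarith [hb i hi])
      (by linarith [hab (i + 1) hi])
  have hcs : (e 0 - e N) ^ 2 ≤ (N : ℝ) * ∑ i ∈ Finset.range N, (e i - e (i + 1)) ^ 2 := by
    have := sq_sum_le_card_mul_sum_sq (s := Finset.range N) (f := fun i => e i - e (i + 1))
    rwa [Finset.sum_range_sub', Finset.card_range] at this
  have h1 := mul_le_mul_of_nonneg_left (Finset.sum_le_sum hstep) (Nat.cast_nonneg (α := ℝ) N)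
  simp only [Finset.sum_sub_distrib, Finset.sum_add_distrib, ← Finset.sum_div] at h1
  simp only [energy, e] at *
  linarith

/-- The grid conditions. -/
def Good (L : LocalCN X) (K N : ℕ) (z : Pt o) (w : ℕ → Pt o) (a b : ℕ → Pt o)
    (R : ℕ → ℕ → Pt o) : Prop :=
  (∀ j ≤ K, ∀ i < N, Near L (R j i) (R j (i + 1)) ∧ dist (R j i).1 (R j (i + 1)).1 ≤ L.r / 32) ∧
  (∀ j < K, ∀ i ≤ N, Near L (R j i) (R (j + 1) i) ∧ dist (R j i).1 (R (j + 1) i).1 ≤ L.r / 32) ∧
  (∀ j ≤ K, R j 0 = z ∧ R j N = w j) ∧ R 0 = a ∧ R K = b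

/-- One midpoint sweep. -/
def sweep (L : LocalCN X) (K : ℕ) (R : ℕ → ℕ → Pt o) : ℕ → ℕ → Pt o := fun j =>
  if 0 < j ∧ j < K then fun i => midPt L (R (j - 1) i) (R (j + 1) i) else R j

variable {K N : ℕ} {z : Pt o} {w a b : ℕ → Pt o}

lemma Near.of_le {p q s : Pt o} {α β : ℝ} (h1 : Near L p q) (h2 : Near L q s)
    (ha : dist p.1 q.1 ≤ α) (hb : dist q.1 s.1 ≤ β) (h : α + β < L.r / 4) :
    Near L p s ∧ dist p.1 s.1 ≤ α + β := by
  have := (dist_triangle p.1 q.1 s.1).trans (add_le_add ha hb)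
  exact ⟨h1.trans h2 (this.trans_lt h), this⟩

lemma Good.next (hw : ∀ j, 0 < j → j < K → midPt L (w (j - 1)) (w (j + 1)) = w j) (hK : 2 ≤ K)
    {R : ℕ → ℕ → Pt o} (hR : Good L K N z w a b R) : Good L K N z w a b (sweep L K R) := by
  obtain ⟨hrow, hcol, hend, hA, hB⟩ := hR
  have hr := L.r_pos
  -- two steps apart
  have h2 : ∀ j, 0 < j → j < K → ∀ i ≤ N, Near L (R (j - 1) i) (R (j + 1) i) ∧
      dist (R (j - 1) i).1 (R (j + 1) i).1 ≤ L.r / 32 + L.r / 32 := by
    intro j hj0 hjK i hi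
    have c1 := hcol (j - 1) (by omega) i hi
    have c2 := hcol j hjK i hi
    rw [Nat.sub_add_cancel hj0] at c1
    exact c1.1.of_le c2.1 c1.2 c2.2 (by linarith)
  have hm : ∀ j, 0 < j → j < K → ∀ i ≤ N,
      let m := midPt L (R (j - 1) i) (R (j + 1) i)
      (Near L (R (j - 1) i) m ∧ dist (R (j - 1) i).1 m.1 ≤ L.r / 32) ∧
      (Near L (R (j + 1) i) m ∧ dist (R (j + 1) i).1 m.1 ≤ L.r / 32) := by
    intro j hj0 hjK i hi
    obtain ⟨hn, hd⟩ := h2 j hj0 hjK i hi
    have hlt : dist (R (j - 1) i).1 (R (j + 1) i).1 < L.r := by linarith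
    exact ⟨⟨(near_midPt hn).1, by rw [midPt_fst, L.dist_left _ _ hlt]; linarith⟩,
      (near_midPt hn).2, by rw [midPt_fst, dist_comm, L.dist_right _ _ hlt]; linarith⟩
  have hjoint : ∀ x₀ x₁ y₀ y₁ : X, dist x₀ x₁ ≤ L.r / 16 → dist x₀ y₀ ≤ L.r / 32 →
      dist x₁ y₁ ≤ L.r / 32 → dist y₀ y₁ ≤ L.r / 16 → dist (L.mid x₀ x₁) (L.mid y₀ y₁) ≤ L.r / 32 := by
    intro x₀ x₁ y₀ y₁ e1 e2 e3 e4
    have h := L.joint x₀ y₀ x₁ y₁ (by linarith) (by linarith) (by linarith) (by linarith)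
    have a2 := pow_le_pow_left₀ dist_nonneg e2 2
    have a3 := pow_le_pow_left₀ dist_nonneg e3 2
    refine (pow_le_pow_iff_left₀ dist_nonneg (by linarith) two_ne_zero).1 ?_
    nlinarith [sq_nonneg (dist x₀ x₁ - dist y₀ y₁)]
  refine ⟨fun j hj i hi => ?_, fun j hj i hi => ?_, fun j hj => ?_, ?_, ?_⟩
  · by_cases hjm : 0 < j ∧ j < K
    · simp only [sweep, if_pos hjm]
      obtain ⟨hj0, hjK⟩ := hjm
      obtain ⟨⟨n1, d1⟩, -⟩ := hm j hj0 hjK i hi.le
      obtain ⟨⟨n2, d2⟩, -⟩ := hm j hj0 hjK (i + 1) hi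
      obtain ⟨n3, d3⟩ := hrow (j - 1) (by omega) i hi
      have hd : dist (midPt L (R (j - 1) i) (R (j + 1) i)).1
          (midPt L (R (j - 1) (i + 1)) (R (j + 1) (i + 1))).1 ≤ L.r / 32 :=
        hjoint _ _ _ _ (by linarith [(h2 j hj0 hjK i hi.le).2]) d3 (hrow (j + 1) hjK i hi).2
          (by linarith [(h2 j hj0 hjK (i + 1) hi).2])
      obtain ⟨n4, d4⟩ := n1.symm.of_le n3 ((dist_comm _ _).trans_le d1) d3 (by linarith)
      exact ⟨n4.trans n2 (hd.trans_lt (by linarith)), hd⟩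
    · simp only [sweep, if_neg hjm]
      exact hrow j hj i hi
  · rcases Nat.eq_zero_or_pos j with rfl | hj0
    · simp only [sweep, if_neg (show ¬ (0 < 0 ∧ 0 < K) by omega), if_pos (show 0 < 0 + 1 ∧ 0 + 1 < K by omega)]
      exact (hm 1 one_pos (by omega) i hi).1
    by_cases hjK : j + 1 < K
    · simp only [sweep, if_pos (show 0 < j ∧ j < K by omega), if_pos (show 0 < j + 1 ∧ j + 1 < K by omega),
        Nat.add_sub_cancel]
      obtain ⟨-, n1, d1⟩ := hm j hj0 hj i hi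
      obtain ⟨⟨n2, d2⟩, -⟩ := hm (j + 1) (by omega) hjK i hi
      simp only [Nat.add_sub_cancel] at n2 d2
      obtain ⟨n3, d3⟩ := hcol j hj i hi
      obtain ⟨n4, d4⟩ := n1.symm.of_le n3.symm ((dist_comm _ _).trans_le d1) ((dist_comm _ _).trans_le d3) (by linarith)
      have c1 := hcol (j - 1) (by omega) i hi
      rw [Nat.sub_add_cancel hj0] at c1
      have hd : dist (midPt L (R (j - 1) i) (R (j + 1) i)).1 (midPt L (R j i) (R (j + 1 + 1) i)).1 ≤ L.r / 32 :=
        hjoint _ _ _ _ (by linarith [(h2 j hj0 hj i hi).2]) c1.2 (hcol (j + 1) hjK i hi).2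
          (by have := (h2 (j + 1) (by omega) hjK i hi).2; simp only [Nat.add_sub_cancel] at this; linarith)
      exact ⟨n4.trans n2 (by linarith), hd⟩
    · simp only [sweep, if_pos (show 0 < j ∧ j < K by omega), if_neg (show ¬ (0 < j + 1 ∧ j + 1 < K) by omega)]
      obtain ⟨-, n1, d1⟩ := hm j hj0 hj i hi
      exact ⟨n1.symm, by rw [dist_comm]; exact d1⟩
  · by_cases hjm : 0 < j ∧ j < K
    · simp only [sweep, if_pos hjm, (hend (j - 1) (by omega)).1, (hend (j + 1) hjm.2).1,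
        (hend (j - 1) (by omega)).2, (hend (j + 1) hjm.2).2]
      refine ⟨?_, hw j hjm.1 hjm.2⟩
      rw [midPt, mid_self, move_self]
    · simp only [sweep, if_neg hjm]
      exact hend j hj
  · simp [Develop.sweep, hA]
  · simp [Develop.sweep, hB]

lemma energy_sweep {R : ℕ → ℕ → Pt o} (hR : Good L K N z w a b R) {j : ℕ} (hj0 : 0 < j) (hjK : j < K) :
    energy N (sweep L K R j) ≤ (energy N (R (j - 1)) + energy N (R (j + 1))) / 2 -
      dist (w (j - 1)).1 (w (j + 1)).1 ^ 2 / 4 := by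
  obtain ⟨hrow, hcol, hend, -, -⟩ := hR
  have hr := L.r_pos
  have h := energy_mid (L := L) (h := L.r / 32) (by linarith) (m := sweep L K R j) (a := R (j - 1))
    (b := R (j + 1)) (N := N) (fun i _ => by simp [Develop.sweep, hj0, hjK]) (fun i hi => by
      have c1 := hcol (j - 1) (by omega) i hi
      rw [Nat.sub_add_cancel hj0] at c1
      linarith [dist_triangle (R (j - 1) i).1 (R j i).1 (R (j + 1) i).1, c1.2, (hcol j hjK i hi).2])
    (fun i hi => (hrow (j - 1) (by omega) i hi).2) fun i hi => (hrow (j + 1) hjK i hi).2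
  rw [(hend (j - 1) (by omega)).1, (hend (j + 1) hjK).1, (hend (j - 1) (by omega)).2,
    (hend (j + 1) hjK).2, dist_self, zero_sub, neg_sq] at h
  exact h

/-- The middle row of the iterated grid. -/
lemma grid_bound {M : ℕ} (hM : 0 < M) {δ : ℝ} {R : ℕ → ℕ → Pt o}
    (hR : Good L (2 * M) N z w a b R)
    (hw : ∀ j, 0 < j → j < 2 * M →
      midPt L (w (j - 1)) (w (j + 1)) = w j ∧ dist (w (j - 1)).1 (w (j + 1)).1 = 2 * δ) :
    dd L z (w M) ^ 2 ≤ energy N a / 2 + energy N b / 2 - (M * δ) ^ 2 := by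
  refine le_of_forall_pos_le_add fun ε hε => ?_
  set It : ℕ → ℕ → ℕ → Pt o := fun n => (Develop.sweep L (2 * M))^[n] R with hIt
  have hgood : ∀ n, Good L (2 * M) N z w a b (It n) := by
    intro n
    induction n with
    | zero => exact hR
    | succ n ih =>
      simp only [hIt, Function.iterate_succ_apply']
      exact ih.next (fun j h1 h2 => (hw j h1 h2).1) (by omega)
  set U : ℕ → ℕ → ℝ := fun n j => energy N (It n j) - ((j : ℝ) * δ) ^ 2 with hUdef
  obtain ⟨n, hn⟩ := heat (K := 2 * M) U (energy N a) (energy N b - ((2 * M : ℕ) * δ) ^ 2)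
    (fun n j h1 h2 => by
      have h := energy_sweep (hgood n) h1 h2
      rw [(hw j h1 h2).2] at h
      simp only [hUdef]
      rw [show It (n + 1) = Develop.sweep L (2 * M) (It n) from Function.iterate_succ_apply' _ _ _,
        Nat.cast_sub (by omega : 1 ≤ j)]
      push_cast
      nlinarith)
    (fun n => by simp [hUdef, (hgood n).2.2.2.1]) (fun n => by simp [hUdef, (hgood n).2.2.2.2])
    (by omega) (j := M) (by omega) hε
  obtain ⟨hrow, -, hend, -, -⟩ := hgood n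
  have hreach := Reach.of_steps (f := It n M) (fun i hi => (hrow M (by omega) i hi).1)
  rw [(hend M (by omega)).1, (hend M (by omega)).2] at hreach
  have h1 := pow_le_pow_left₀ (dd_nonneg z (w M)) (dd_le hreach) 2
  have h2 := sq_sum_le_card_mul_sum_sq (s := Finset.range N)
    (f := fun i => dist (It n M i).1 (It n M (i + 1)).1)
  rw [Finset.card_range] at h2
  have hM' : (M : ℝ) ≠ 0 := by exact_mod_cast hM.ne'
  simp only [hUdef, energy] at hn ⊢
  push_cast at hn
  field_simp at hn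
  nlinarith

end

end Vale.Agent.P255.Develop
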