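import Vale.Agent.P255.Develop.Cover

/-!
The length distance between classes, minimising chains and Lipschitz representatives.
-/

open Set Filter Topology unitInterval

namespace Vale.Agent.P255.Develop

noncomputable section

variable {X : Type} [MetricSpace X] [CompactSpace X] [PathConnectedSpace X] {L : LocalCN X} {o : X}

/-- The straight path between two parameters. -/
def segI (a b : I) : Path a b where
  toFun t := ⟨(1 - (t : ℝ)) * a + t * b, (convex_Icc (0 : ℝ) 1) a.2 b.2 (sub_nonneg.2 t.2.2) t.2.1 (by ring)⟩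
  continuous_toFun := by fun_prop
  source' := by ext; simp
  target' := by ext; simp

lemma segI_dist (a b : I) (t : I) : dist a (segI a b t) ≤ dist a b := by
  simp only [Subtype.dist_eq, Real.dist_eq, segI]
  show |(a : ℝ) - ((1 - (t : ℝ)) * a + t * b)| ≤ |(a : ℝ) - b|
  rw [show (a : ℝ) - ((1 - (t : ℝ)) * a + t * b) = t * (a - b) by ring, abs_mul, abs_of_nonneg t.2.1]
  exact mul_le_of_le_one_left (abs_nonneg _) t.2.2

/-- The parameter `i / n`. -/
def param (n i : ℕ) : I := projIcc 0 1 zero_le_one ((i : ℝ) / n)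

lemma param_zero (n : ℕ) : param n 0 = 0 := by
  ext; simp [param]

lemma param_self {n : ℕ} (hn : 0 < n) : param n n = 1 := by
  ext; simp [param, hn.ne']

lemma param_val {n i : ℕ} (hi : i ≤ n) : (param n i : ℝ) = (i : ℝ) / n := by
  rw [param, projIcc_of_mem]
  exact ⟨by positivity, div_le_one_of_le₀ (Nat.cast_le.2 hi) (Nat.cast_nonneg n)⟩

lemma param_dist {n i : ℕ} (hi : i < n) : dist (param n i) (param n (i + 1)) = 1 / n := by
  rw [Subtype.dist_eq, Real.dist_eq, param_val hi.le, param_val hi, abs_of_nonpos]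
  · push_cast; ring
  · have : (i : ℝ) / n ≤ ((i + 1 : ℕ) : ℝ) / n :=
      div_le_div_of_nonneg_right (Nat.cast_le.2 (Nat.le_succ i)) (Nat.cast_nonneg n)
    linarith

omit [CompactSpace X] [PathConnectedSpace X] in
lemma exists_mesh {Y : Type*} [MetricSpace Y] [CompactSpace Y] (F : C(Y, X)) {ε : ℝ} (hε : 0 < ε) :
    ∃ δ > (0 : ℝ), ∀ w w', dist w w' < δ → dist (F w) (F w') < ε :=
  Metric.uniformContinuous_iff.1 (CompactSpace.uniformContinuous_of_continuous F.continuous) ε hε

omit [CompactSpace X] [PathConnectedSpace X] in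
lemma trans_heq {a b c a' b' c' : X} (ha : a = a') (hb : b = b') (hc : c = c')
    {p : Path.Homotopic.Quotient a b} {p' : Path.Homotopic.Quotient a' b'}
    {q : Path.Homotopic.Quotient b c} {q' : Path.Homotopic.Quotient b' c'}
    (hp : p ≍ p') (hq : q ≍ q') : p.trans q ≍ p'.trans q' := by
  subst ha hb hc
  rw [eq_of_heq hp, eq_of_heq hq]

lemma path_chain (p : Pt o) {y : X} (P : Path p.1 y) {l : ℝ}
    (hl : ∀ n : ℕ, 0 < n → ∀ i < n, dist (P (param n i)) (P (param n (i + 1))) ≤ l / n) :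
    Reach L p ⟨y, p.2.trans (Path.Homotopic.Quotient.mk P)⟩ l := by
  have hr := L.r_pos
  let q : Path.Homotopic.Quotient o (P.toContinuousMap 0) := p.2.cast rfl P.source
  obtain ⟨δ, hδ, hF⟩ := exists_mesh P.toContinuousMap (show 0 < L.r / 4 by linarith)
  obtain ⟨n, hn⟩ := exists_nat_gt (1 / δ)
  have hn0 : 0 < n := by
    rcases Nat.eq_zero_or_pos n with h | h
    · rw [h, Nat.cast_zero] at hn; linarith [show (0 : ℝ) < 1 / δ by positivity]
    · exact h
  have hmesh : (1 : ℝ) / n < δ := by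
    rw [div_lt_iff₀ (by exact_mod_cast hn0)]
    rw [div_lt_iff₀ hδ] at hn
    linarith
  have hsteps : ∀ i < n, Near L (lift P.toContinuousMap 0 q (param n i))
      (lift P.toContinuousMap 0 q (param n (i + 1))) := fun i hi =>
    lift_near L _ _ _ (segI _ _) fun t => hF _ _ ((segI_dist _ _ t).trans_lt (by rw [param_dist hi]; exact hmesh))
  have h := Reach.of_steps_le (f := fun i => lift P.toContinuousMap 0 q (param n i)) hsteps (hl n hn0)
  rw [mul_div_cancel₀ l (by exact_mod_cast hn0.ne' : (n : ℝ) ≠ 0)] at h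
  simp only [param_zero, param_self hn0] at h
  obtain ⟨x, α⟩ := p
  have e0 : lift P.toContinuousMap 0 q 0 = ⟨x, α⟩ := by
    rw [lift_base]
    have := P.source
    simp only [q]
    exact Sigma.ext P.source (Path.Homotopic.Quotient.cast_heq rfl P.source)
  have e1 : lift P.toContinuousMap 0 q 1 = ⟨y, α.trans (Path.Homotopic.Quotient.mk P)⟩ := by
    rw [lift_eq _ _ _ (segI 0 1)]
    refine Sigma.ext P.target ?_
    refine trans_heq rfl P.source P.target (Path.Homotopic.Quotient.cast_heq rfl P.source) ?_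
    have e : (segI 0 1).map P.toContinuousMap.continuous = P.cast P.source P.target := by
      ext t
      simp [segI]
    rw [e, Path.Homotopic.Quotient.mk_cast]
    exact Path.Homotopic.Quotient.cast_heq _ _
  rwa [e0, e1] at h

omit [CompactSpace X] [PathConnectedSpace X] in
lemma exists_bound {Y : Type*} [MetricSpace Y] (f : ℕ → Y) (n : ℕ) :
    ∃ B : ℝ, 0 ≤ B ∧ ∀ i < n, dist (f i) (f (i + 1)) ≤ B :=
  ⟨∑ i ∈ Finset.range n, dist (f i) (f (i + 1)), Finset.sum_nonneg fun i _ => dist_nonneg,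
    fun i hi => Finset.single_le_sum (f := fun i => dist (f i) (f (i + 1))) (fun i _ => dist_nonneg)
      (Finset.mem_range.2 hi)⟩

lemma exists_reach (p q : Pt o) : ∃ l, Reach L p q l := by
  obtain ⟨x, α⟩ := p
  obtain ⟨y, β⟩ := q
  obtain ⟨P, hP⟩ : ∃ P : Path x y, Path.Homotopic.Quotient.mk P = α.symm.trans β :=
    Quotient.exists_rep (α.symm.trans β)
  have hr := L.r_pos
  obtain ⟨δ, hδ, hF⟩ := exists_mesh P.toContinuousMap (show 0 < L.r / 4 by linarith)
  obtain ⟨n, hn⟩ := exists_nat_gt (1 / δ)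
  have hn0 : 0 < n := Nat.pos_of_ne_zero fun h => by
    rw [h, Nat.cast_zero] at hn; linarith [show (0 : ℝ) < 1 / δ by positivity]
  have hmesh : (1 : ℝ) / n < δ := by
    rw [div_lt_iff₀ (by exact_mod_cast hn0)]
    rw [div_lt_iff₀ hδ] at hn
    linarith
  let q₀ : Path.Homotopic.Quotient o (P.toContinuousMap 0) := α.cast rfl P.source
  obtain ⟨B, -, hB⟩ := exists_bound (fun i => P (param n i)) n
  have hsteps : ∀ i < n, Near L (lift P.toContinuousMap 0 q₀ (param n i))
      (lift P.toContinuousMap 0 q₀ (param n (i + 1))) := fun i hi =>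
    lift_near L _ _ _ (segI _ _) fun t => hF _ _ ((segI_dist _ _ t).trans_lt (by rw [param_dist hi]; exact hmesh))
  have h := Reach.of_steps_le (f := fun i => lift P.toContinuousMap 0 q₀ (param n i)) hsteps hB
  simp only [param_zero, param_self hn0] at h
  have e0 : lift P.toContinuousMap 0 q₀ 0 = ⟨x, α⟩ := by
    rw [lift_base]
    exact Sigma.ext P.source (Path.Homotopic.Quotient.cast_heq rfl P.source)
  have e1 : lift P.toContinuousMap 0 q₀ 1 = ⟨y, α.trans (Path.Homotopic.Quotient.mk P)⟩ := by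
    rw [lift_eq _ _ _ (segI 0 1)]
    refine Sigma.ext P.target ?_
    refine trans_heq rfl P.source P.target (Path.Homotopic.Quotient.cast_heq rfl P.source) ?_
    have e : (segI 0 1).map P.toContinuousMap.continuous = P.cast P.source P.target := by
      ext t
      simp [segI]
    rw [e, Path.Homotopic.Quotient.mk_cast]
    exact Path.Homotopic.Quotient.cast_heq _ _
  rw [e0, e1, hP, ← Path.Homotopic.Quotient.trans_assoc, Path.Homotopic.Quotient.trans_symm,
    Path.Homotopic.Quotient.refl_trans] at h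
  exact ⟨_, h⟩

variable (L) in
/-- The length distance between classes. -/
def dd (p q : Pt o) : ℝ := sInf {l | Reach L p q l}

lemma dd_le {p q : Pt o} {l : ℝ} (h : Reach L p q l) : dd L p q ≤ l :=
  csInf_le ⟨0, fun _ h => h.nonneg⟩ h

lemma dd_nonneg (p q : Pt o) : 0 ≤ dd L p q :=
  le_csInf (exists_reach p q) fun _ h => h.nonneg

lemma exists_lt_dd (p q : Pt o) {ε : ℝ} (hε : 0 < ε) : ∃ l < dd L p q + ε, Reach L p q l := by
  obtain ⟨l, hl, hlt⟩ := exists_lt_of_csInf_lt (s := {l | Reach L p q l}) (exists_reach p q)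
    (lt_add_of_pos_right (dd L p q) hε)
  exact ⟨l, hlt, hl⟩

lemma dd_self (p : Pt o) : dd L p p = 0 :=
  le_antisymm (dd_le (.refl p 0 le_rfl)) (dd_nonneg p p)

lemma dd_comm (p q : Pt o) : dd L p q = dd L q p := by
  refine congrArg sInf (Set.ext fun l => ⟨Reach.symm, Reach.symm⟩)

lemma dd_triangle (p q s : Pt o) : dd L p s ≤ dd L p q + dd L q s := by
  refine le_of_forall_pos_le_add fun ε hε => ?_
  obtain ⟨a, ha, h1⟩ := exists_lt_dd (L := L) p q (half_pos hε)
  obtain ⟨b, hb, h2⟩ := exists_lt_dd (L := L) q s (half_pos hε)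
  linarith [dd_le (h1.trans h2)]

/-- The infimum is attained. -/
lemma reach_dd (p q : Pt o) : Reach L p q (dd L p q) := by
  have hr := L.r_pos
  set D := dd L p q
  have hD : 0 ≤ D := dd_nonneg p q
  obtain ⟨K, hK⟩ := exists_nat_gt ((D + 1) / (L.r / 16))
  have hK0 : 0 < K := Nat.pos_of_ne_zero fun h => by
    rw [h, Nat.cast_zero] at hK; linarith [show (0 : ℝ) ≤ (D + 1) / (L.r / 16) by positivity]
  have hKr : (0 : ℝ) < K := by exact_mod_cast hK0
  have hh : (D + 1) / K < L.r / 16 := by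
    rw [div_lt_iff₀ hKr]
    rw [div_lt_iff₀ (by linarith : (0 : ℝ) < L.r / 16)] at hK
    linarith
  have hex : ∀ k : ℕ, ∃ f : ℕ → Pt o, f 0 = p ∧ f K = q ∧ ∀ i < K, Near L (f i) (f (i + 1)) ∧
      dist (f i).1 (f (i + 1)).1 ≤ (D + 1 / (k + 1)) / K := by
    intro k
    obtain ⟨l, hl, h⟩ := exists_lt_dd (L := L) p q (show (0 : ℝ) < 1 / (k + 1) by positivity)
    refine (h.mono hl.le).equal_steps hK0 ?_
    have h1 : (D + 1 / ((k : ℝ) + 1)) / K ≤ (D + 1) / K := by
      refine div_le_div_of_nonneg_right ?_ hKr.le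
      have : 1 / ((k : ℝ) + 1) ≤ 1 := by rw [div_le_one (by positivity)]; linarith [k.cast_nonneg (α := ℝ)]
      linarith
    linarith
  choose f f0 fK hf using hex
  obtain ⟨g, φ, hφ, hg⟩ := CompactSpace.tendsto_subseq fun k (i : Fin (K + 1)) => (f k i).1
  have hgi : ∀ i, (hi : i ≤ K) → Tendsto (fun k => (f (φ k) i).1) atTop (𝓝 (g ⟨i, Nat.lt_succ_of_le hi⟩)) :=
    fun i hi => tendsto_pi_nhds.1 hg ⟨i, Nat.lt_succ_of_le hi⟩
  let c : ℕ → X := fun i => if hi : i ≤ K then g ⟨i, Nat.lt_succ_of_le hi⟩ else p.1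
  have hc : ∀ i ≤ K, Tendsto (fun k => (f (φ k) i).1) atTop (𝓝 (c i)) := fun i hi => by
    simpa only [c, dif_pos hi] using hgi i hi
  have hstep : ∀ i < K, dist (c i) (c (i + 1)) ≤ D / K := fun i hi => by
    refine le_of_tendsto_of_tendsto' ((hc i hi.le).dist (hc (i + 1) hi)) ?_ fun k => (hf (φ k) i hi).2
    have h0 := ((tendsto_one_div_add_atTop_nhds_zero_nat (𝕜 := ℝ)).comp hφ.tendsto_atTop)
    simpa using (tendsto_const_nhds.add h0).div_const (K : ℝ)
  have hc0 : c 0 = p.1 :=
    tendsto_nhds_unique (hc 0 (Nat.zero_le K)) (by simp only [f0]; exact tendsto_const_nhds)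
  let F : ℕ → Pt o := fun i => Nat.rec p (fun j m => move L m (c (j + 1))) i
  have hF1 : ∀ i, i ≤ K → (F i).1 = c i := by
    rintro (_ | i) -
    · exact hc0.symm
    · rfl
  have hDK : D / K < L.r / 4 := by
    have : D / K ≤ (D + 1) / K := div_le_div_of_nonneg_right (by linarith) hKr.le
    linarith
  have hFn : ∀ i < K, Near L (F i) (F (i + 1)) := fun i hi =>
    near_move L _ (by rw [hF1 i hi.le]; exact (hstep i hi).trans_lt hDK)
  have hev : ∀ i ≤ K, ∀ᶠ k in atTop, Near L (f (φ k) i) (F i) := by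
    intro i hi
    induction i with
    | zero => exact .of_forall fun k => by rw [f0]; exact Near.refl L p
    | succ i ih =>
      filter_upwards [ih (by omega),
        (hc i (by omega)).eventually (Metric.ball_mem_nhds (c i) (show 0 < L.r / 32 by linarith)),
        (hc (i + 1) hi).eventually (Metric.ball_mem_nhds (c (i + 1)) (show 0 < L.r / 32 by linarith))]
        with k hk hA hB
      have hA' : dist (f (φ k) i).1 (c i) < L.r / 32 := hA
      have hB' : dist (f (φ k) (i + 1)).1 (c (i + 1)) < L.r / 32 := hB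
      have hs := hstep i (by omega)
      have hi1 := hF1 i (by omega)
      have hi2 := hF1 (i + 1) hi
      have hD16 : D / K ≤ (D + 1) / K := div_le_div_of_nonneg_right (by linarith) hKr.le
      have h1 : dist (f (φ k) (i + 1)).1 (F i).1 < L.r / 4 := by
        have := dist_triangle (f (φ k) (i + 1)).1 (c (i + 1)) (c i)
        rw [hi1, dist_comm (c (i + 1)) (c i)] at *
        linarith
      exact ((hf (φ k) i (by omega)).1.symm.trans hk h1).trans (hFn i (by omega)) (by rw [hi2]; linarith)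
  have hFK : F K = q := by
    obtain ⟨k, hk⟩ := (hev K le_rfl).exists
    rw [fK] at hk
    refine (hk.eq_of_fst ?_).symm
    rw [hF1 K le_rfl]
    exact (tendsto_nhds_unique (hc K le_rfl) (by simp only [fK]; exact tendsto_const_nhds)).symm
  have h := Reach.of_steps_le hFn (δ := D / K) fun i hi => by
    rw [hF1 i hi.le, hF1 (i + 1) hi]; exact hstep i hi
  rw [mul_div_cancel₀ D hKr.ne', hFK] at h
  exact h

/-- A Lipschitz representative. -/
lemma exists_lip {p q : Pt o} {l : ℝ} (h : Reach L p q l) :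
    ∃ P : Path p.1 q.1, q.2 = p.2.trans (Path.Homotopic.Quotient.mk P) ∧
      ∀ s t : I, dist (P s) (P t) ≤ l * |(s : ℝ) - t| := by
  have hr := L.r_pos
  obtain ⟨n, hn⟩ := pow_unbounded_of_one_lt (l / (L.r / 4)) (one_lt_two (α := ℝ))
  rw [div_lt_iff₀ (by linarith : (0 : ℝ) < L.r / 4)] at hn
  induction n generalizing p q l with
  | zero =>
    simp only [pow_zero, one_mul] at hn
    have hnear := h.near hn
    have hd := h.dist_le
    have h2 : dist p.1 q.1 < L.r / 2 := by linarith [hnear.1]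
    refine ⟨geoPath L h2, ?_, fun s t => ?_⟩
    · rw [← seg_eq L h2]
      obtain ⟨y, β⟩ := q
      exact eq_of_heq (Sigma.ext_iff.1 hnear.2).2
    · calc dist (geoPath L h2 s) (geoPath L h2 t) ≤ |(s : ℝ) - t| * dist p.1 q.1 := geo_dist L h2 s.2 t.2
        _ ≤ l * |(s : ℝ) - t| := by
          rw [mul_comm]; exact mul_le_mul_of_nonneg_right hd (abs_nonneg _)
  | succ n ih =>
    have hl := h.nonneg
    obtain ⟨m, h1, h2⟩ := h.split (l / 2) (by linarith) (by linarith)
    rw [pow_succ] at hn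
    obtain ⟨P, hP, hP'⟩ := ih h1 (by linarith)
    obtain ⟨Q, hQ, hQ'⟩ := ih h2 (by linarith)
    refine ⟨P.trans Q, by rw [hQ, hP, Path.Homotopic.Quotient.mk_trans, Path.Homotopic.Quotient.trans_assoc], ?_⟩
    intro s t
    wlog hst : (s : ℝ) ≤ t generalizing s t
    · rw [dist_comm, abs_sub_comm]; exact this t s (le_of_not_ge hst)
    rw [abs_sub_comm, abs_of_nonneg (sub_nonneg.2 hst)]
    rcases le_or_gt (t : ℝ) (1 / 2) with ht | ht
    · rw [Path.trans_apply, Path.trans_apply, dif_pos ht, dif_pos (hst.trans ht)]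
      refine (hP' _ _).trans (le_of_eq ?_)
      simp only [abs_sub_comm (2 * (s : ℝ)), abs_of_nonneg (show (0 : ℝ) ≤ 2 * t - 2 * s by linarith)]
      ring
    rcases le_or_gt (s : ℝ) (1 / 2) with hs | hs
    · rw [Path.trans_apply, Path.trans_apply, dif_pos hs, dif_neg (not_le.2 ht)]
      refine (dist_triangle _ m.1 _).trans ?_
      have a1 := hP' ⟨2 * (s : ℝ), unitInterval.mul_pos_mem_iff two_pos |>.2 ⟨s.2.1, hs⟩⟩ 1
      have a2 := hQ' 0 ⟨2 * (t : ℝ) - 1, unitInterval.two_mul_sub_one_mem_iff.2 ⟨ht.le, t.2.2⟩⟩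
      simp only [Path.source, Path.target, Set.Icc.coe_one, Set.Icc.coe_zero] at a1 a2
      rw [abs_of_nonpos (by linarith : 2 * (s : ℝ) - 1 ≤ 0)] at a1
      rw [abs_of_nonpos (by linarith : 0 - (2 * (t : ℝ) - 1) ≤ 0)] at a2
      linarith
    · rw [Path.trans_apply, Path.trans_apply, dif_neg (not_le.2 hs), dif_neg (not_le.2 ht)]
      refine (hQ' _ _).trans (le_of_eq ?_)
      simp only
      rw [abs_sub_comm, abs_of_nonneg (by linarith : (0 : ℝ) ≤ (2 * (t : ℝ) - 1) - (2 * s - 1))]
      ring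

/-- The action of a loop. -/
def act (γ : FundamentalGroup X o) (p : Pt o) : Pt o := ⟨p.1, γ.toPath.symm.trans p.2⟩

lemma reach_act (γ : FundamentalGroup X o) {p q : Pt o} {l : ℝ} (h : Reach L p q l) :
    Reach L (act γ p) (act γ q) l := by
  induction h with
  | refl p l h => exact .refl _ _ h
  | head p r s l₀ l₁ h1 _ h3 ih =>
    obtain ⟨y, β⟩ := r
    have hβ : β = p.2.trans (seg L p.1 y) := eq_of_heq (Sigma.ext_iff.1 h1.2).2
    subst hβ
    refine .head _ (act γ ⟨y, p.2.trans (seg L p.1 y)⟩) _ l₀ _ ⟨h1.1, ?_⟩ ih h3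
    simp [act, move, Path.Homotopic.Quotient.trans_assoc]

omit [CompactSpace X] [PathConnectedSpace X] in
lemma act_one (p : Pt o) : act (1 : FundamentalGroup X o) p = p := by
  obtain ⟨x, q⟩ := p
  show (⟨x, (Path.Homotopic.Quotient.refl o).symm.trans q⟩ : Pt o) = ⟨x, q⟩
  rw [show (Path.Homotopic.Quotient.refl o).symm = Path.Homotopic.Quotient.refl o by
    rw [← Path.Homotopic.Quotient.mk_refl, ← Path.Homotopic.Quotient.mk_symm, Path.refl_symm],
    Path.Homotopic.Quotient.refl_trans]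

omit [CompactSpace X] [PathConnectedSpace X] in
lemma act_mul (γ δ : FundamentalGroup X o) (p : Pt o) : act (γ * δ) p = act γ (act δ p) := by
  obtain ⟨x, q⟩ := p
  simp only [act]
  have : (γ * δ).toPath.symm = γ.toPath.symm.trans δ.toPath.symm := mul_inv_rev γ δ |>.trans rfl
  rw [this, Path.Homotopic.Quotient.trans_assoc]

lemma dd_act (γ : FundamentalGroup X o) (p q : Pt o) : dd L (act γ p) (act γ q) = dd L p q := by
  refine congrArg sInf (Set.ext fun l => ⟨fun h => ?_, reach_act γ⟩)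
  have := reach_act γ⁻¹ h
  rwa [← act_mul, ← act_mul, inv_mul_cancel, act_one, act_one] at this

lemma le_dd_act (γ : FundamentalGroup X o) (hγ : γ ≠ 1) (p : Pt o) : L.r / 4 ≤ dd L p (act γ p) := by
  by_contra hlt
  have h := ((reach_dd p (act γ p)).near (not_le.1 hlt)).eq_of_fst rfl
  obtain ⟨x, q⟩ := p
  have h' : q = γ.toPath.symm.trans q := eq_of_heq (Sigma.ext_iff.1 h).2
  apply hγ
  have : γ⁻¹ = 1 := by
    have h2 := congrArg (fun z => Path.Homotopic.Quotient.trans z q.symm) h'
    simp only [Path.Homotopic.Quotient.trans_assoc, Path.Homotopic.Quotient.trans_symm,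
      Path.Homotopic.Quotient.trans_refl] at h2
    exact h2.symm
  exact inv_eq_one.1 this

end

end Vale.Agent.P255.Develop
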